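import Mathlib
import Vale.Agent.P321.Defs
import Vale.Agent.P321S.Strings
import Vale.Agent.P321S.OvFinal

namespace Vale.Agent.Results.P321.Superpolynomial

open Vale.Agent.P321

/-- For every fixed deletion probability `q` in `(0,1)` the worst-case sample complexity `T_q(n)`
of trace reconstruction grows faster than every polynomial: for every `K` there is `c > 0` with
`T_q(n) ≥ c n^K` for all `n ≥ 1`. -/
theorem result (q : ℝ) (h0 : 0 < q) (h1 : q < 1) (K : ℕ) :
    ∃ c : ℝ, 0 < c ∧ ∀ n : ℕ, 1 ≤ n → c * (n:ℝ)^K ≤ (sampleComplexity q n : ℝ) :=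
  Vale.Agent.P321S.superpoly_of_overlap h0 h1 (Vale.Agent.P321S.overlap_base q h0 h1) K

end Vale.Agent.Results.P321.Superpolynomial
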