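import Mathlib
import Vale.Agent.P321.Defs
import Vale.Agent.P321.Final

namespace Vale.Agent.Results.P321.ThreeHalves

open Vale.Agent.P321

/-- For every fixed deletion probability `q` in `(0,1)` there is a constant `c > 0` such that
`T_q(n) ≥ c n^{3/2}` for all `n ≥ 1`. -/
theorem result (q : ℝ) (h0 : 0 < q) (h1 : q < 1) :
    ∃ c : ℝ, 0 < c ∧ ∀ n : ℕ, 1 ≤ n → c * (n:ℝ)^(3/2 : ℝ) ≤ (sampleComplexity q n : ℝ) :=
  Vale.Agent.P321.main q h0 h1

end Vale.Agent.Results.P321.ThreeHalves
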